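import Vale.Agent.P154.Assembly.Thresholds
import Vale.Agent.P154.Assembly.PoissonThree
import Vale.Agent.P154.D4.Transient
import Vale.Agent.P154.Ferro4.Certificate
import Vale.Agent.P154.NegEnd2.Below
import Vale.Agent.P154.NegNine.Local

/-!
Reconstruction threshold of the three- and four-state Potts channels on regular and Poisson
Galton-Watson trees.
-/

namespace Vale.Agent.Results.P154.PottsThreeFour

open Vale.Agent.P154

/-- Reconstruction happens exactly when `d lam ^ 2 > 1`, and nonreconstruction exactly when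
`d lam ^ 2 ≤ 1`: for three states and every admissible `lam ∈ [-1/2, 1]`, and for four states and
`lam ∈ [0, 1]`, on the `d`-ary tree and on the Poisson Galton-Watson tree. -/
theorem result :
    ∀ (q : ℕ) (lam : ℝ),
      ((q = 3 ∧ -(1 / 2 : ℝ) ≤ lam ∧ lam ≤ 1) ∨ (q = 4 ∧ 0 ≤ lam ∧ lam ≤ 1)) →
        (∀ d : ℕ, 2 ≤ d →
          (Reconstructs (aRegular q lam d) ↔ 1 < (d : ℝ) * lam ^ 2) ∧
          (NonReconstructs (aRegular q lam d) ↔ (d : ℝ) * lam ^ 2 ≤ 1)) ∧
        (∀ d : ℝ, 0 < d →
          (Reconstructs (aPoisson q lam d) ↔ 1 < d * lam ^ 2) ∧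
          (NonReconstructs (aPoisson q lam d) ↔ d * lam ^ 2 ≤ 1)) := by
  rintro q lam (⟨rfl, h0, h1⟩ | ⟨rfl, h0, h1⟩)
  · exact ⟨fun d hd => Assembly.regular_three_of_transient D4.transient lam h0 h1 d hd,
      fun d hd => Assembly.poisson_three_of_local (fun l a b => NegEnd2.affCertBelow a b)
        (fun l a b => NegNine.affCertBelow_nine l a b) lam h0 h1 d hd⟩
  · exact Assembly.thresholds_of_ferroCert _ Ferro4.ferroCert_four lam h0 h1

end Vale.Agent.Results.P154.PottsThreeFour
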